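import Vale.Agent.P033.Four

/-! Products of shifts of the first row of a circulant Hadamard matrix. -/

namespace Vale.Agent.Results.P033.FourShifts

open Vale.Agent.P033

theorem result (n m : ℕ) [NeZero n] (hn : n = 4 * m) (hm : Odd m) (h4 : 4 < n)
    (h : ZMod n → ℤ) (H : IsCirculantHadamard n h) :
    (∀ a b c d : ZMod n, a ≠ b → a ≠ c → b ≠ c →
      (∃ i, h (i + a) * h (i + b) * h (i + c) * h (i + d) = 1) ∧
        ∃ i, h (i + a) * h (i + b) * h (i + c) * h (i + d) = -1) ∧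
    (∀ s t : ZMod n, s ≠ 0 → t ≠ 0 → s + t ≠ 0 → ∀ f g : ZMod n → ℤ,
      (∀ i, f (i + s) = f i) → (∀ i, g (i + t) = g i) → ∃ i, h i ≠ f i * g i) :=
  ⟨fun _ _ _ _ ab ac bc => four_signs hn hm h4 H ab ac bc,
    fun _ _ s0 t0 st f g hf hg => by
      by_contra hcon
      push Not at hcon
      exact not_product hn hm H s0 t0 st f g hf hg hcon⟩

end Vale.Agent.Results.P033.FourShifts
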